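import Vale.Agent.P196.Full.Tiles.Geom.Colour
import Vale.Agent.P196.Full.Tiles.Geom.Grid

/-!
# P196: possible cells and what they force on their neighbours

The multi-valued form of the geometry: at every position a set of possible cells is given, each
having a possible neighbour on each of its four sides. A statement about an edge says that all
possible cells agree there.
-/

namespace Vale.Agent.P196.Full.Lift.Geo

open Tiles Tiles.Geo

/-- The four geometric colours of a cell, the horizontal ones transposed. -/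
structure Q4 where
  /-- The left colour. -/
  l : GCol
  /-- The right colour. -/
  r : GCol
  /-- The transposed bottom colour. -/
  d : GCol
  /-- The transposed top colour. -/
  u : GCol

/-- Transposition. -/
def Q4.swap (σ : Q4) : Q4 := ⟨σ.d, σ.u, σ.l, σ.r⟩

variable {M : ℕ} {K' : ℤ → ℤ → Set Q4}

/-- The colours of the cell `(i, j)` of a block. -/
structure IsCell (M : ℕ) (σ : Q4) (i j : ℕ) : Prop where
  lt_i : i < 2 * M
  lt_j : j < 2 * M
  l : σ.l = geoH M i j
  r : σ.r = geoH M (i + 1) j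
  d : σ.d = geoH M j i
  u : σ.u = geoH M (j + 1) i

/-- Possible cells with arcs to possible neighbours. -/
structure Arcs (M : ℕ) (K' : ℤ → ℤ → Set Q4) : Prop where
  large : 4 * K ≤ M
  cell : ∀ x y, ∀ σ ∈ K' x y, ∃ i j, IsCell M σ i j
  right : ∀ x y, ∀ σ ∈ K' x y, ∃ τ ∈ K' (x + 1) y, τ.l = σ.r
  left : ∀ x y, ∀ σ ∈ K' x y, ∃ τ ∈ K' (x - 1) y, τ.r = σ.l
  up : ∀ x y, ∀ σ ∈ K' x y, ∃ τ ∈ K' x (y + 1), τ.d = σ.u
  down : ∀ x y, ∀ σ ∈ K' x y, ∃ τ ∈ K' x (y - 1), τ.u = σ.d

/-- All possible cells at `(x, y)` are the cell `(i, j)`. -/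
def At (M : ℕ) (K' : ℤ → ℤ → Set Q4) (x y : ℤ) (i j : ℕ) : Prop :=
  i < 2 * M ∧ j < 2 * M ∧ ∀ σ ∈ K' x y, IsCell M σ i j

/-- All possible cells have left colour `g` at `(x, y)`. -/
def EH (K' : ℤ → ℤ → Set Q4) (x y : ℤ) (g : GCol) : Prop := ∀ σ ∈ K' x y, σ.l = g

/-- All possible cells have bottom colour `g` at `(x, y)`. -/
def EW (K' : ℤ → ℤ → Set Q4) (x y : ℤ) (g : GCol) : Prop := ∀ σ ∈ K' x y, σ.d = g

/-- Transposed possible cells. -/
def tr (K' : ℤ → ℤ → Set Q4) : ℤ → ℤ → Set Q4 := fun x y => {σ | σ.swap ∈ K' y x}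

variable {x y : ℤ} {i j d : ℕ} {g : GCol} {σ : Q4}

theorem IsCell.congr {i' j' : ℕ} (a : IsCell M σ i j) (hi : i = i') (hj : j = j') :
    IsCell M σ i' j' := by
  subst hi hj
  exact a

theorem At.congr {x' y' : ℤ} {i' j' : ℕ} (a : At M K' x y i j) (hx : x = x') (hy : y = y')
    (hi : i = i') (hj : j = j') : At M K' x' y' i' j' := by
  subst hx hy hi hj
  exact a

theorem IsCell.swap (a : IsCell M σ i j) : IsCell M σ.swap j i :=
  ⟨a.lt_j, a.lt_i, a.d, a.u, a.l, a.r⟩

theorem Arcs.swap (c : Arcs M K') : Arcs M (tr K') where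
  large := c.large
  cell x y _ hσ := let ⟨i, j, a⟩ := c.cell y x _ hσ; ⟨j, i, a.swap⟩
  right x y _ hσ := let ⟨τ, h, e⟩ := c.up y x _ hσ; ⟨τ.swap, h, e⟩
  left x y _ hσ := let ⟨τ, h, e⟩ := c.down y x _ hσ; ⟨τ.swap, h, e⟩
  up x y _ hσ := let ⟨τ, h, e⟩ := c.right y x _ hσ; ⟨τ.swap, h, e⟩
  down x y _ hσ := let ⟨τ, h, e⟩ := c.left y x _ hσ; ⟨τ.swap, h, e⟩

theorem At.swap (a : At M K' x y i j) : At M (tr K') y x j i :=
  ⟨a.2.1, a.1, fun _ hσ => (a.2.2 _ hσ).swap⟩

theorem EH.r (c : Arcs M K') (h : EH K' (x + 1) y g) (hσ : σ ∈ K' x y) : σ.r = g := by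
  obtain ⟨τ, hτ, e⟩ := c.right x y σ hσ
  rw [← e]; exact h τ hτ

theorem EW.u (c : Arcs M K') (h : EW K' x (y + 1) g) (hσ : σ ∈ K' x y) : σ.u = g := by
  obtain ⟨τ, hτ, e⟩ := c.up x y σ hσ
  rw [← e]; exact h τ hτ

theorem At.eh (a : At M K' x y i j) : EH K' x y (geoH M i j) := fun σ hσ => (a.2.2 σ hσ).l

theorem At.ew (a : At M K' x y i j) : EW K' x y (geoH M j i) := fun σ hσ => (a.2.2 σ hσ).d

theorem eh_of_r (c : Arcs M K') (h : ∀ σ ∈ K' x y, σ.r = g) : EH K' (x + 1) y g := fun σ hσ => by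
  obtain ⟨τ, hτ, e⟩ := c.left _ _ σ hσ
  rw [add_sub_cancel_right] at hτ
  rw [← e]; exact h τ hτ

theorem ew_of_u (c : Arcs M K') (h : ∀ σ ∈ K' x y, σ.u = g) : EW K' x (y + 1) g := fun σ hσ => by
  obtain ⟨τ, hτ, e⟩ := c.down _ _ σ hσ
  rw [add_sub_cancel_right] at hτ
  rw [← e]; exact h τ hτ

theorem At.ehR (c : Arcs M K') (a : At M K' x y i j) : EH K' (x + 1) y (geoH M (i + 1) j) :=
  eh_of_r c fun σ hσ => (a.2.2 σ hσ).r

theorem At.ewU (c : Arcs M K') (a : At M K' x y i j) : EW K' x (y + 1) (geoH M (j + 1) i) :=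
  ew_of_u c fun σ hσ => (a.2.2 σ hσ).u

theorem At.moveR (c : Arcs M K') (a : At M K' x y i j) (h1 : M ≤ i + K) (h2 : i + 1 < M + K)
    (h3 : M ≤ j + K) (h4 : j < M + K) : At M K' (x + 1) y (i + 1) j := by
  have hM := c.large
  refine ⟨by omega, a.2.1, fun σ hσ => ?_⟩
  obtain ⟨p, q, b⟩ := c.cell _ _ σ hσ
  have e := b.l.symm.trans (a.ehR c σ hσ)
  rw [geoH_tag c.large (i := i + 1) (by omega) (by omega) h3 h4] at e
  obtain ⟨_, _, _, _, _, _⟩ := tag_inv e
  exact b.congr (by omega) (by omega)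

theorem At.moveL (c : Arcs M K') (a : At M K' x y i j) (h1 : M < i + K) (h2 : i < M + K)
    (h3 : M ≤ j + K) (h4 : j < M + K) : At M K' (x - 1) y (i - 1) j := by
  have hM := c.large
  refine ⟨by omega, a.2.1, fun σ hσ => ?_⟩
  obtain ⟨p, q, b⟩ := c.cell _ _ σ hσ
  have e := b.r.symm.trans (EH.r c ((sub_add_cancel x 1).symm ▸ a.eh) hσ)
  rw [geoH_tag c.large (i := i) (by omega) (by omega) h3 h4] at e
  obtain ⟨_, _, _, _, _, _⟩ := tag_inv e
  exact b.congr (by omega) (by omega)

/-- The cell above a cell of a diagonal, towards the centre: bottom left. -/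
theorem At.upBL (c : Arcs M K') (a : At M K' x y d d) (hd : d + K < M) :
    At M K' (x + 1) (y + 1) (d + 1) (d + 1) := by
  have := one_le_K
  have hM := c.large
  have key : ∀ {K' : ℤ → ℤ → Set Q4} {x y : ℤ}, Arcs M K' → At M K' x y d d →
      ∀ σ ∈ K' (x + 1) (y + 1), ∀ {p q : ℕ}, p < 2 * M → q < 2 * M →
        σ.d = geoH M q p → q = d + 1 := by
    intro K' x y c a σ hσ p q hp hq e'
    obtain ⟨τ, hτ, eu⟩ := c.down _ _ σ hσ
    rw [add_sub_cancel_right] at hτ
    obtain ⟨p', q', b⟩ := c.cell _ _ τ hτ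
    have e := b.l.symm.trans (a.ehR c τ hτ)
    rw [geoH_bottom (i := d + 1) (by omega) (by omega) hd] at e
    obtain ⟨hq', hlt, _, _, hb⟩ := bottom_inv e
    have hp' : p' ≤ M := by
      simp only [decide_eq_decide] at hb
      omega
    have e2 := e'.symm.trans (eu.symm.trans b.u)
    rcases Nat.lt_or_ge (q' + 1 + K) M with hs | hs
    · rw [geoH_left (j := p') (by omega) hs (by omega) (by omega)] at e2
      obtain ⟨_, _, _, _, _, _⟩ := left_inv e2
      omega
    · rw [geoH_tag hM (i := q' + 1) (j := p') (by omega) (by omega) (by omega) (by omega)] at e2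
      obtain ⟨_, _, _, _, _, _⟩ := tag_inv e2
      omega
  refine ⟨by omega, by omega, fun σ hσ => ?_⟩
  obtain ⟨p, q, b⟩ := c.cell _ _ σ hσ
  have e1 : q = d + 1 := key c a σ hσ b.lt_i b.lt_j b.d
  have e2 : p = d + 1 := key c.swap a.swap σ.swap hσ b.lt_j b.lt_i b.l
  exact b.congr e2 e1

/-- The cell above a cell of a diagonal, towards the centre: bottom right. -/
theorem At.upBR (c : Arcs M K') (a : At M K' x y i d) (hid : i + d + 1 = 2 * M)
    (hd : d + K < M) : At M K' (x - 1) (y + 1) (i - 1) (d + 1) := by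
  have := one_le_K
  have hM := c.large
  refine ⟨by omega, by omega, fun σ hσ => ?_⟩
  obtain ⟨p, q, b⟩ := c.cell _ _ σ hσ
  have e1 : q = d + 1 := by
    obtain ⟨τ, hτ, eu⟩ := c.down _ _ σ hσ
    rw [add_sub_cancel_right] at hτ
    obtain ⟨p', q', b'⟩ := c.cell _ _ τ hτ
    have e := b'.r.symm.trans (EH.r c ((sub_add_cancel x 1).symm ▸ a.eh) hτ)
    rw [geoH_bottom (i := i) (by omega) (by omega) hd] at e
    obtain ⟨hq', _, _, _, hb⟩ := bottom_inv e
    simp only [decide_eq_decide] at hb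
    have e2 := b.d.symm.trans (eu.symm.trans b'.u)
    rcases Nat.lt_or_ge (q' + 1 + K) M with hs | hs
    · rw [geoH_left (j := p') (by omega) hs (by omega) (by omega)] at e2
      obtain ⟨_, _, _, _, _, _⟩ := left_inv e2
      omega
    · rw [geoH_tag hM (i := q' + 1) (j := p') (by omega) (by omega) (by omega) (by omega)] at e2
      obtain ⟨_, _, _, _, _, _⟩ := tag_inv e2
      omega
  have e2 : p + 1 = i := by
    obtain ⟨τ, hτ, el⟩ := c.right _ _ σ hσ
    rw [sub_add_cancel] at hτ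
    obtain ⟨p', q', b'⟩ := c.cell _ _ τ hτ
    have e := b'.d.symm.trans (a.ewU c τ hτ)
    rw [geoH_top (i := d + 1) a.1 (by omega) (by omega) (by omega)] at e
    obtain ⟨hv, _, _, _, hb⟩ := top_inv b'.lt_i e
    simp only [decide_eq_decide] at hb
    have e2 := b.r.symm.trans (el.symm.trans b'.l)
    have hp : p + 1 ≤ 2 * M := b.lt_i
    rcases Nat.lt_or_ge (M + K) p' with hs | hs
    · rw [geoH_right (j := q') b'.lt_i hs (by omega) (by omega)] at e2
      obtain ⟨_, _, _, _, _, _⟩ := right_inv hp b.lt_j e2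
      omega
    · rw [geoH_tag hM (i := p') (j := q') (by omega) hs (by omega) (by omega)] at e2
      obtain ⟨_, _, _, _, _, _⟩ := tag_inv e2
      omega
  exact b.congr (by omega) e1

/-- A cell of the bottom zone: the edge above it determines the two edges after it. -/
theorem bottom_step (c : Arcs M K') (hj : j < i) (hij : i + j + 1 < 2 * M) (hjK : j + K < M)
    (hu : EW K' x (y + 1) (geoH M (j + 1) i)) :
    EH K' (x + 1) y (geoH M (i + 1) j) ∧ EW K' x y (geoH M j i) ∧
      (i < M → EH K' x y (geoH M i j)) := by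
  have := one_le_K
  have hM := c.large
  have main : ∀ σ ∈ K' x y, σ.r = geoH M (i + 1) j ∧ σ.d = geoH M j i ∧
      (i < M → σ.l = geoH M i j) := by
    intro σ hσ
    obtain ⟨p, q, b⟩ := c.cell _ _ σ hσ
    have e := b.u.symm.trans (hu.u c hσ)
    have hq : q + 1 ≤ 2 * M := b.lt_j
    have key : q = j ∧ j < p ∧ p + j + 1 < 2 * M ∧ (M ≤ p ↔ M ≤ i) := by
      rcases Nat.lt_or_ge (j + 1 + K) M with hs | hs
      · rw [geoH_left (j := i) (by omega) hs (by omega) (by omega)] at e
        obtain ⟨_, _, _, _, _, hb⟩ := left_inv e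
        simp only [decide_eq_decide] at hb
        omega
      · rw [geoH_tag hM (i := j + 1) (j := i) (by omega) (by omega) (by omega) (by omega)] at e
        obtain ⟨_, _, _, _, _, _⟩ := tag_inv e
        omega
    obtain ⟨rfl, h1, h2, h3⟩ := key
    refine ⟨?_, ?_, fun hiM => ?_⟩
    · rw [b.r, geoH_bottom (i := p + 1) (by omega) (by omega) hjK,
        geoH_bottom (i := i + 1) (by omega) (by omega) hjK,
        decide_eq_decide.2 (show M < p + 1 ↔ M < i + 1 by omega)]
    · rw [b.d]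
      rcases Nat.eq_zero_or_pos q with rfl | hq0
      · rw [geoH_outer (Or.inl rfl), geoH_outer (Or.inl rfl)]
        unfold outK
        simp only [show p ≠ 0 by omega, show i ≠ 0 by omega, show p + 1 ≠ 2 * M by omega,
          show i + 1 ≠ 2 * M by omega, if_false]
        congr 1
        split_ifs <;> first | rfl | omega
      · rw [geoH_left (j := p) hq0 hjK (by omega) (by omega),
          geoH_left (j := i) hq0 hjK (by omega) (by omega),
          decide_eq_decide.2 h3]
    · rw [b.l, geoH_bottom h1 (by omega) hjK, geoH_bottom hj (by omega) hjK,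
        decide_eq_decide.2 (show M < p ↔ M < i by omega)]
  exact ⟨eh_of_r c fun σ hσ => (main σ hσ).1, fun σ hσ => (main σ hσ).2.1,
    fun h σ hσ => (main σ hσ).2.2 h⟩

/-- A cell of the top zone: the edge below it determines the two edges after it. -/
theorem top_step (c : Arcs M K') (hj : j < 2 * M) (hi : i < j) (hij : 2 * M ≤ i + j)
    (hjK : M + K ≤ j) (hd : EW K' x y (geoH M j i)) :
    EH K' (x + 1) y (geoH M (i + 1) j) ∧ EW K' x (y + 1) (geoH M (j + 1) i) ∧
      (i < M → EH K' x y (geoH M i j)) := by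
  have := one_le_K
  have hM := c.large
  have main : ∀ σ ∈ K' x y, σ.r = geoH M (i + 1) j ∧ σ.u = geoH M (j + 1) i ∧
      (i < M → σ.l = geoH M i j) := by
    intro σ hσ
    obtain ⟨p, q, b⟩ := c.cell _ _ σ hσ
    have e := b.d.symm.trans (hd σ hσ)
    have key : q = j ∧ p < j ∧ 2 * M ≤ p + j ∧ (M ≤ p ↔ M ≤ i) := by
      rcases Nat.lt_or_ge (M + K) j with hs | hs
      · rw [geoH_right (j := i) hj hs (by omega) (by omega)] at e
        obtain ⟨_, _, _, _, _, hb⟩ := right_inv b.lt_j.le b.lt_i e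
        simp only [decide_eq_decide] at hb
        omega
      · rw [geoH_tag hM (i := j) (j := i) (by omega) hs (by omega) (by omega)] at e
        obtain ⟨_, _, _, _, _, _⟩ := tag_inv e
        omega
    obtain ⟨rfl, h1, h2, h3⟩ := key
    refine ⟨?_, ?_, fun hiM => ?_⟩
    · rw [b.r, geoH_top (i := p + 1) hj (by omega) (by omega) hjK,
        geoH_top (i := i + 1) hj (by omega) (by omega) hjK,
        decide_eq_decide.2 (show M < p + 1 ↔ M < i + 1 by omega)]
    · rw [b.u]
      rcases Nat.lt_or_ge (q + 1) (2 * M) with hq1 | hq1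
      · rw [geoH_right (j := p) hq1 (by omega) (by omega) (by omega),
          geoH_right (j := i) hq1 (by omega) (by omega) (by omega), decide_eq_decide.2 h3]
      · rw [geoH_outer (Or.inr (by omega)), geoH_outer (Or.inr (by omega))]
        unfold outK
        simp only [show p ≠ 0 by omega, show i ≠ 0 by omega, show p + 1 ≠ 2 * M by omega,
          show i + 1 ≠ 2 * M by omega, if_false]
        congr 1
        split_ifs <;> first | rfl | omega
    · rw [b.l, geoH_top (i := p) hj (by omega) (by omega) hjK,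
        geoH_top (i := i) hj (by omega) (by omega) hjK,
        decide_eq_decide.2 (show M < p ↔ M < i by omega)]
  exact ⟨eh_of_r c fun σ hσ => (main σ hσ).1, ew_of_u c fun σ hσ => (main σ hσ).2.1,
    fun h σ hσ => (main σ hσ).2.2 h⟩

/-- The bottom left corner of a ring is determined by its two inner edges. -/
theorem cornerBL (c : Arcs M K') (hd : d + K < M) (hr : EH K' (x + 1) y (geoH M (d + 1) d))
    (hu : EW K' x (y + 1) (geoH M (d + 1) d)) : At M K' x y d d := by
  have := one_le_K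
  have hM := c.large
  refine ⟨by omega, by omega, fun σ hσ => ?_⟩
  obtain ⟨p, q, b⟩ := c.cell _ _ σ hσ
  have e1 := b.r.symm.trans (hr.r c hσ)
  have e2 := b.u.symm.trans (hu.u c hσ)
  rw [geoH_bottom (i := d + 1) (by omega) (by omega) hd] at e1 e2
  obtain ⟨_, _, _, _, _⟩ := bottom_inv e1
  obtain ⟨_, _, _, _, _⟩ := bottom_inv e2
  exact b.congr (by omega) (by omega)

/-- The top right corner of a ring is determined by its two inner edges. -/
theorem cornerTR (c : Arcs M K') (hd : M + K ≤ d) (hd' : d < 2 * M)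
    (hl : EH K' x y (geoH M d d)) (hdn : EW K' x y (geoH M d d)) : At M K' x y d d := by
  have := one_le_K
  have hM := c.large
  refine ⟨hd', hd', fun σ hσ => ?_⟩
  obtain ⟨p, q, b⟩ := c.cell _ _ σ hσ
  have e1 := b.l.symm.trans (hl σ hσ)
  have e2 := b.d.symm.trans (hdn σ hσ)
  rw [geoH_top hd' (by omega) le_rfl hd] at e1 e2
  obtain ⟨_, _, _, _, _⟩ := top_inv b.lt_j e1
  obtain ⟨_, _, _, _, _⟩ := top_inv b.lt_i e2
  exact b.congr (by omega) (by omega)

/-- The bottom right corner of a ring is determined by its two inner edges. -/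
theorem cornerBR (c : Arcs M K') (hid : i + d + 1 = 2 * M) (hd : d + K < M)
    (hl : EH K' x y (geoH M i d)) (hu : EW K' x (y + 1) (geoH M (d + 1) i)) :
    At M K' x y i d := by
  have := one_le_K
  have hM := c.large
  refine ⟨by omega, by omega, fun σ hσ => ?_⟩
  obtain ⟨p, q, b⟩ := c.cell _ _ σ hσ
  have e1 := b.l.symm.trans (hl σ hσ)
  have e2 := b.u.symm.trans (hu.u c hσ)
  rw [geoH_bottom (i := i) (by omega) (by omega) hd] at e1
  rw [geoH_top (i := d + 1) (by omega) (by omega) (by omega) (by omega)] at e2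
  obtain ⟨_, _, _, _, _⟩ := bottom_inv e1
  obtain ⟨_, _, _, _, _⟩ := top_inv b.lt_i e2
  exact b.congr (by omega) (by omega)

end Vale.Agent.P196.Full.Lift.Geo
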