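import Vale.Agent.P196.Full.Lift.Geo.Cell

/-!
# P196: from any possible cell one reaches a possible cell of a centre
-/

namespace Vale.Agent.P196.Full.Lift.Geo

open Tiles Tiles.Geo

variable {M : ℕ} {K' : ℤ → ℤ → Set Q4}

/-- Ring number of a cell. -/
def depth (M p q : ℕ) : ℕ := min (min p q) (min (2 * M - 1 - p) (2 * M - 1 - q))

/-- The cell `(p, q)` lies in the centre. -/
def InCentre (M p q : ℕ) : Prop := M ≤ p + K ∧ p < M + K ∧ M ≤ q + K ∧ q < M + K

/-- A possible cell of ring at least `m`. -/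
def Deep (M : ℕ) (K' : ℤ → ℤ → Set Q4) (m : ℕ) : Prop :=
  ∃ x y, ∃ σ ∈ K' x y, ∃ p q, IsCell M σ p q ∧ m ≤ depth M p q

theorem Deep.swap {m : ℕ} (h : Deep M (tr K') m) : Deep M K' m := by
  obtain ⟨x, y, σ, hσ, p, q, a, hm⟩ := h
  refine ⟨y, x, σ.swap, hσ, q, p, a.swap, ?_⟩
  simp only [depth] at hm ⊢
  omega

/-- Above a cell of the bottom zone, off the diagonals, there is a deeper cell. -/
theorem deeper_bottom (c : Arcs M K') {x y : ℤ} {σ : Q4} (hσ : σ ∈ K' x y) {p q : ℕ}
    (a : IsCell M σ p q) (hqK : q + K < M) (h1 : q < p) (h2 : p + q + 1 < 2 * M) :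
    Deep M K' (q + 1) := by
  have := one_le_K
  have hM := c.large
  obtain ⟨τ, hτ, e⟩ := c.up x y σ hσ
  obtain ⟨p', q', b⟩ := c.cell _ _ τ hτ
  refine ⟨_, _, τ, hτ, p', q', b, ?_⟩
  have := b.lt_i
  have := b.lt_j
  have e' := b.d.symm.trans (e.trans a.u)
  simp only [depth]
  rcases Nat.lt_or_ge (q + 1 + K) M with hs | hs
  · rw [geoH_left (j := p) (by omega) hs (by omega) (by omega)] at e'
    obtain ⟨_, _, _, _, _, _⟩ := left_inv e'
    omega
  · rw [geoH_tag hM (i := q + 1) (j := p) (by omega) (by omega) (by omega) (by omega)] at e'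
    obtain ⟨_, _, _, _, _, _⟩ := tag_inv e'
    omega

/-- Below a cell of the top zone, off the diagonals, there is a deeper cell. -/
theorem deeper_top (c : Arcs M K') {x y : ℤ} {σ : Q4} (hσ : σ ∈ K' x y) {p q : ℕ}
    (a : IsCell M σ p q) (hqK : M + K ≤ q) (h1 : p < q) (h2 : 2 * M ≤ p + q) :
    Deep M K' (2 * M - q) := by
  have := one_le_K
  have hM := c.large
  obtain ⟨τ, hτ, e⟩ := c.down x y σ hσ
  obtain ⟨p', q', b⟩ := c.cell _ _ τ hτ
  refine ⟨_, _, τ, hτ, p', q', b, ?_⟩
  have := b.lt_i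
  have := b.lt_j
  have := a.lt_j
  have e' := b.u.symm.trans (e.trans a.d)
  simp only [depth]
  rcases Nat.lt_or_ge (M + K) q with hs | hs
  · rw [geoH_right (j := p) a.lt_j hs (by omega) (by omega)] at e'
    obtain ⟨_, _, _, _, _, _⟩ := right_inv (show q' + 1 ≤ 2 * M by omega) b.lt_i e'
    omega
  · rw [geoH_tag hM (i := q) (j := p) (by omega) hs (by omega) (by omega)] at e'
    obtain ⟨_, _, _, _, _, _⟩ := tag_inv e'
    omega

/-- A possible cell outside the centre has a deeper one. -/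
theorem deeper (c : Arcs M K') {x y : ℤ} {σ : Q4} (hσ : σ ∈ K' x y) {p q : ℕ}
    (a : IsCell M σ p q) (hc : ¬ InCentre M p q) : Deep M K' (depth M p q + 1) := by
  have := one_le_K
  have hM := c.large
  have main : ∀ {K' : ℤ → ℤ → Set Q4}, Arcs M K' → ∀ {x y : ℤ} {σ : Q4}, σ ∈ K' x y →
      ∀ {p q : ℕ}, IsCell M σ p q →
      (q + K < M ∧ q ≤ p ∧ p + q < 2 * M ∨ M + K ≤ q ∧ p ≤ q ∧ 2 * M ≤ p + q + 1) →
      Deep M K' (depth M p q + 1) := by
    intro K' c x y σ hσ p q a hz
    have := a.lt_i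
    have := a.lt_j
    rcases hz with ⟨hqK, h1, h2⟩ | ⟨hqK, h1, h2⟩
    · rw [show depth M p q = q by simp only [depth]; omega]
      by_cases hd : p = q
      · subst hd
        obtain ⟨τ, hτ, e⟩ := c.right x y σ hσ
        obtain ⟨p', q', b⟩ := c.cell _ _ τ hτ
        have e' := b.l.symm.trans (e.trans a.r)
        rw [geoH_bottom (i := p + 1) (by omega) (by omega) hqK] at e'
        obtain ⟨hv, _, _, _, hb⟩ := bottom_inv e'
        simp only [decide_eq_decide] at hb
        subst hv
        exact deeper_bottom c hτ b hqK (by omega) (by omega)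
      by_cases hd' : p + q + 1 = 2 * M
      · obtain ⟨τ, hτ, e⟩ := c.left x y σ hσ
        obtain ⟨p', q', b⟩ := c.cell _ _ τ hτ
        have e' := b.r.symm.trans (e.trans a.l)
        rw [geoH_bottom (i := p) (by omega) (by omega) hqK] at e'
        obtain ⟨hv, _, _, _, hb⟩ := bottom_inv e'
        simp only [decide_eq_decide] at hb
        subst hv
        exact deeper_bottom c hτ b hqK (by omega) (by omega)
      exact deeper_bottom c hσ a hqK (by omega) (by omega)
    · rw [show depth M p q = 2 * M - 1 - q by simp only [depth]; omega,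
        show 2 * M - 1 - q + 1 = 2 * M - q by omega]
      by_cases hd : p = q
      · subst hd
        obtain ⟨τ, hτ, e⟩ := c.left x y σ hσ
        obtain ⟨p', q', b⟩ := c.cell _ _ τ hτ
        have := b.lt_j
        have e' := b.r.symm.trans (e.trans a.l)
        rw [geoH_top a.lt_j (by omega) le_rfl hqK] at e'
        obtain ⟨hv, _, _, _, hb⟩ := top_inv b.lt_j e'
        simp only [decide_eq_decide] at hb
        obtain rfl : q' = p := by omega
        exact deeper_top c hτ b hqK (by omega) (by omega)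
      by_cases hd' : p + q + 1 = 2 * M
      · obtain ⟨τ, hτ, e⟩ := c.right x y σ hσ
        obtain ⟨p', q', b⟩ := c.cell _ _ τ hτ
        have := b.lt_j
        have e' := b.l.symm.trans (e.trans a.r)
        rw [geoH_top (i := p + 1) a.lt_j (by omega) (by omega) hqK] at e'
        obtain ⟨hv, _, _, _, hb⟩ := top_inv b.lt_j e'
        simp only [decide_eq_decide] at hb
        obtain rfl : q' = q := by omega
        exact deeper_top c hτ b hqK (by omega) (by omega)
      exact deeper_top c hσ a hqK (by omega) (by omega)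
  have hp := a.lt_i
  have hq := a.lt_j
  unfold InCentre at hc
  by_cases hz : q + K < M ∧ q ≤ p ∧ p + q < 2 * M ∨ M + K ≤ q ∧ p ≤ q ∧ 2 * M ≤ p + q + 1
  · exact main c hσ a hz
  · rw [show depth M p q = depth M q p by simp only [depth]; omega]
    exact (main c.swap (σ := σ.swap) (x := y) (y := x) hσ a.swap (by omega)).swap

/-- Some possible cell lies in a centre. -/
theorem exists_centre (c : Arcs M K') {x y : ℤ} {σ : Q4} (hσ : σ ∈ K' x y) :
    ∃ x' y', ∃ τ ∈ K' x' y', ∃ p q, IsCell M τ p q ∧ InCentre M p q := by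
  by_contra hno
  simp only [not_exists, not_and] at hno
  have key : ∀ m, Deep M K' m := by
    intro m
    induction m with
    | zero =>
      obtain ⟨p, q, a⟩ := c.cell x y σ hσ
      exact ⟨x, y, σ, hσ, p, q, a, Nat.zero_le _⟩
    | succ m ih =>
      obtain ⟨x', y', τ, hτ, p, q, a, hm⟩ := ih
      obtain ⟨x'', y'', ρ, hρ, p', q', b, hm'⟩ := deeper c hτ a (hno x' y' τ hτ p q a)
      exact ⟨x'', y'', ρ, hρ, p', q', b, by omega⟩
  obtain ⟨x', y', τ, -, p, q, a, hm⟩ := key M
  have := a.lt_i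
  simp only [depth] at hm
  omega

end Vale.Agent.P196.Full.Lift.Geo
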