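import Vale.Agent.P196.Full.Lift.Geo.Block
import Vale.Agent.P196.Full.Lift.Geo.Descend

/-!
# P196: exact cells

A cell of a centre, or of the switch column above it, forces the whole grid.
-/

namespace Vale.Agent.P196.Full.Lift.Geo

open Tiles Tiles.Geo

variable {M : ℕ} {K' : ℤ → ℤ → Set Q4} {x y : ℤ} {j : ℕ}

/-- A cell of the centre or of the switch column above it. -/
def Exact (M i j : ℕ) : Prop := InCentre M i j ∨ (i = M ∧ M + K ≤ j ∧ j < 2 * M)

/-- Below a cell of the switch column is a cell of the switch column. -/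
theorem At.downUpper (c : Arcs M K') (a : At M K' x y M j) (hj : M + K ≤ j) :
    At M K' x (y - 1) M (j - 1) := by
  have := one_le_K
  have hM := c.large
  have hj' := a.2.1
  refine ⟨a.1, by omega, fun σ hσ => ?_⟩
  obtain ⟨p, q, b⟩ := c.cell _ _ σ hσ
  have hq : q + 1 ≤ 2 * M := b.lt_j
  have hp : p + 1 ≤ 2 * M := b.lt_i
  have e := b.u.symm.trans
    (EW.u c (y := y - 1) (g := geoH M j M) ((sub_add_cancel y 1).symm ▸ a.ew) hσ)
  rcases Nat.lt_or_ge (M + K) j with hs | hs
  · rw [geoH_right (j := M) hj' hs (by omega) (by omega)] at e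
    obtain ⟨hv, _, _, _, _, hb⟩ := right_inv hq b.lt_i e
    simp only [decide_eq_decide] at hb
    obtain ⟨τ, hτ, el⟩ := c.left _ _ σ hσ
    obtain ⟨π, hπ, eu⟩ := c.up _ _ τ hτ
    rw [sub_add_cancel] at hπ
    obtain ⟨p', q', b'⟩ := c.cell _ _ τ hτ
    obtain ⟨p'', q'', b''⟩ := c.cell _ _ π hπ
    have := b''.lt_j
    have := b''.lt_i
    have e1 := b''.r.symm.trans
      (EH.r c (x := x - 1) (g := geoH M M j) ((sub_add_cancel x 1).symm ▸ a.eh) hπ)
    rw [geoH_top (i := M) hj' (by omega) (by omega) hj] at e1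
    obtain ⟨hv'', _, _, _, hb''⟩ := top_inv b''.lt_j e1
    simp only [decide_eq_decide] at hb''
    have e2 := b'.u.symm.trans (eu.symm.trans b''.d)
    have hq' : q' + 1 ≤ 2 * M := b'.lt_j
    have hp' : p' + 1 ≤ 2 * M := b'.lt_i
    have e3 := b'.r.symm.trans (el.trans b.l)
    rcases Nat.lt_or_ge (p'' + q'') (2 * M) with hd | hd
    · rw [geoH_bottom (i := q'') (j := p'') (by omega) (by omega) (by omega)] at e2
      obtain ⟨_, _, _, _, hb'⟩ := bottom_inv e2
      simp only [decide_eq_decide] at hb'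
      rw [geoH_left (j := q') (by omega) (by omega) (by omega) (by omega)] at e3
      obtain ⟨_, _, _, _, _, _⟩ := left_inv e3.symm
      omega
    rw [geoH_right (j := p'') b''.lt_j (by omega) (by omega) (by omega)] at e2
    obtain ⟨_, _, _, _, _, hb'⟩ := right_inv hq' b'.lt_i e2
    simp only [decide_eq_decide] at hb'
    rcases Nat.lt_or_ge q (M + K) with hqs | hqs
    · omega
    rcases Nat.lt_or_ge p (q + 1) with hpq | hpq
    · rw [geoH_top (i := p) b.lt_j (by omega) (by omega) hqs] at e3
      obtain ⟨_, _, _, _, hb3⟩ := top_inv b'.lt_j e3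
      simp only [decide_eq_decide] at hb3
      exact b.congr (by omega) (by omega)
    · omega
  · rw [geoH_tag hM (i := j) (j := M) (by omega) hs (by omega) (by omega)] at e
    obtain ⟨_, _, _, _, _, _⟩ := tag_inv e
    exact b.congr (by omega) (by omega)

/-- An exact cell forces the grid. -/
theorem grid_of_exact (c : Arcs M K') {i j : ℕ} (a : At M K' x y i j) (he : Exact M i j) (k l : ℤ)
    {i' j' : ℕ} (gi : i' < 2 * M) (gj : j' < 2 * M) :
    At M K' (x - i + 2 * M * k + i') (y - j + 2 * M * l + j') i' j' := by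
  have := one_le_K
  have hM := c.large
  rcases he with ⟨h1, h2, h3, h4⟩ | ⟨hi, h1, -⟩
  · exact grid_of_tag c a h1 h2 h3 h4 k l gi gj
  subst hi
  have down : ∀ n, n + i + K ≤ j + 1 → At i K' x (y - n) i (j - n) := by
    intro n
    induction n with
    | zero => intro _; exact a.congr rfl (by simp) rfl rfl
    | succ n ih =>
      intro hn
      exact ((ih (by omega)).downUpper c (by omega)).congr rfl (by push_cast; ring) rfl (by omega)
  have b := down (j + 1 - (i + K)) (by omega)
  refine (grid_of_tag c b (by omega) (by omega) (by omega) (by omega) k l gi gj).congr ?_ ?_ rfl rfl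
  · rfl
  · omega

end Vale.Agent.P196.Full.Lift.Geo
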